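import Crest.Agent.X212.Pi52.Main
import Crest.Agent.X212.Br55.Defs

/-!
# Row 212, layer G (helper52): `Br55.Pi1Stmt` for the word part up to the time `r + 3/4`

* `pre_cut` : regions inside a connected open set;  `tpc_piece` : `Br55.pc` is a piece;  `pi1`.
-/

set_option autoImplicit false
set_option linter.unusedSectionVars false
noncomputable section
open Set Function Filter Topology
open scoped ContDiff Manifold

namespace Crest.Agent.X212.Pi52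
open M Rod53 Wd38 Cyl58 Hz56 Nm96 Br55

theorem pre_side {X ι : Type*} [TopologicalSpace X] {U : Set X} {V : ι → Set X} (hU : IsOpen U)
    (hV : ∀ p, IsOpen (V p)) (hd : Pairwise (Disjoint on V)) (h : IsPreconnected (U ∪ ⋃ p, V p))
    (k : ∀ p, IsPreconnected (U ∩ V p)) : IsPreconnected U := by
  rw [isPreconnected_iff_subset_of_disjoint] at h ⊢
  intro u v hu hv huv e
  have em : ∀ z ∈ U, z ∈ u → z ∉ v := fun z h1 h2 h3 => (e ▸ ⟨h1, h2, h3⟩ : z ∈ (∅ : Set X))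
  have hv' : ∀ p, ¬U ∩ V p ⊆ u → U ∩ V p ⊆ v := fun p n =>
    (isPreconnected_iff_subset_of_disjoint.1 (k p) u v hu hv (inter_subset_left.trans huv)
      (subset_empty_iff.1 fun z hz => em z hz.1.1 hz.2.1 hz.2.2)).resolve_left n
  refine (h (U ∩ u ∪ ⋃ p : {p // U ∩ V p ⊆ u}, V p) (U ∩ v ∪ ⋃ p : {p // ¬U ∩ V p ⊆ u}, V p)
    ((hU.inter hu).union (isOpen_iUnion fun _ => hV _)) ((hU.inter hv).union (isOpen_iUnion fun _ => hV _))
    ?_ (subset_empty_iff.1 ?_)).imp (fun s z hz => ?_) fun s z hz => ?_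
  · rintro z (hz | hz)
    · exact (huv hz).imp (fun t => .inl ⟨hz, t⟩) fun t => .inl ⟨hz, t⟩
    · obtain ⟨p, hp⟩ := mem_iUnion.1 hz
      by_cases t : U ∩ V p ⊆ u
      exacts [.inl (.inr (mem_iUnion.2 ⟨⟨p, t⟩, hp⟩)), .inr (.inr (mem_iUnion.2 ⟨⟨p, t⟩, hp⟩))]
  · rintro z ⟨-, h1 | h1, h2 | h2⟩
    · exact em z h1.1 h1.2 h2.2
    · obtain ⟨p, hp⟩ := mem_iUnion.1 h2
      exact em z h1.1 h1.2 (hv' _ p.2 ⟨h1.1, hp⟩)
    · obtain ⟨p, hp⟩ := mem_iUnion.1 h1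
      exact em z h2.1 (p.2 ⟨h2.1, hp⟩) h2.2
    · obtain ⟨p, hp⟩ := mem_iUnion.1 h1
      obtain ⟨q, hq⟩ := mem_iUnion.1 h2
      exact disjoint_left.1 (hd (show p.1 ≠ q.1 from fun t => q.2 (t ▸ p.2))) hp hq
  · refine (s (.inl hz)).elim And.right fun t => ?_
    obtain ⟨p, hp⟩ := mem_iUnion.1 t
    exact p.2 ⟨hz, hp⟩
  · refine (s (.inl hz)).elim And.right fun t => ?_
    obtain ⟨p, hp⟩ := mem_iUnion.1 t
    exact hv' _ p.2 ⟨hz, hp⟩

theorem pre_cut {X A : Type} [TopologicalSpace X] [PreconnectedSpace X] [Finite A] {S : Sys X A} {ρ : Reg A}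
    {Ω : Set X} (h : S.IsReg ρ) (hΩ : IsOpen Ω) (h1 : IsPreconnected Ω)
    (k : ∀ a b, ρ a = some b → (S.w a).half b ⊆ Ω) : IsPreconnected (S.U ρ ∩ Ω) := by
  let ι := {p : A × Bool // ρ p.1 = some p.2}
  refine pre_side (V := fun p : ι => Ω ∩ ((S.w p.1.1).sd (!p.1.2) ∪ (S.w p.1.1).band))
    ((S.isOpen_U ρ).inter hΩ) (fun p => hΩ.inter (((S.w _).op_sd _).union (S.w _).op_band))
    (fun p q hpq => ?_) ?_ fun p => ?_
  · have n : p.1.1 ≠ q.1.1 := fun e =>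
      hpq (Subtype.ext (Prod.ext e (Option.some.inj (p.2.symm.trans (e ▸ q.2)))))
    have c := h.cell (Sys.mem_bd_of p.2) (Sys.mem_bd_of q.2) n
    refine disjoint_left.2 fun z h1 h2 => ?_
    have := Wall.nest c (h.band_subset n.symm p.2 (Sys.mem_bd_of q.2)) (h.band_subset n q.2 (Sys.mem_bd_of p.2)) h1.2
    rcases h2.2 with t | t
    · exact (S.w _).not_mem_sd this t
    · rcases h1.2 with t' | t'
      · exact (S.w _).not_mem_sd (h.band_subset n.symm p.2 (Sys.mem_bd_of q.2) t) t'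
      · exact disjoint_left.1 c t' t
  · convert h1 using 1
    refine Subset.antisymm (union_subset inter_subset_right (iUnion_subset fun _ => inter_subset_left))
      fun z hz => ?_
    by_cases t : z ∈ S.U ρ
    · exact .inl ⟨t, hz⟩
    · simp only [Sys.U, mem_setOf_eq, not_forall] at t
      obtain ⟨a, b, e, t⟩ := t
      exact .inr (mem_iUnion.2 ⟨⟨(a, b), e⟩, hz, (S.w a).compl_subset b t⟩)
  · convert (S.w p.1.1).conn_half p.1.2 using 1
    refine Subset.antisymm (fun z hz => ⟨hz.2.2.resolve_left ((S.w _).not_mem_sd (hz.1.1 _ _ p.2)),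
      hz.1.1 _ _ p.2⟩) fun z hz => ⟨⟨h.adj _ _ p.2 hz, k _ _ p.2 hz⟩, k _ _ p.2 hz, .inr hz.1⟩

variable {Γ : Nm} {C : Cx Γ} {F : Fm Γ} {hw : F.w.OK} {X : TP V4} (R : Rz C hw X) {B : Finset Bs} {η : Bs → Bool}

/-- the neck system of the walls `B` -/
def tsys (h : ∀ a ∈ B, a.OK F.w ∧ a.pin) : Sys X.P.M B := ⟨fun a => (R.bn a.1 (h _ a.2).1).wall⟩

theorem tsys_trc (h : ∀ a ∈ B, a.OK F.w ∧ a.pin) : Sid48.Trc R (tsys R h) id Subtype.val univ :=
  ⟨bijective_id, fun a _ => (h _ a.2).1, fun a _ => ((Sid48.utw_nil rfl).spec R (a := a.1) (h _ a.2).1).1,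
    fun a _ z => Iff.trans (by rw [← R.range_bn _ (h _ a.2).1]; rfl)
      (((Sid48.utw_nil rfl).spec R (a := a.1) (h _ a.2).1).2 z)⟩

/-- `Br55.pc` is a piece -/
theorem tpc_piece (h : TPc F B η) : ∃ π, (tsys R h.ok).Piece univ π ∧ (tsys R h.ok).U π = pc R B η := by
  have := R.con
  have T := tsys_trc R h.ok
  have f : ∀ {a b : B}, a ≠ b → a.1.Far b.1 := fun n => h.far _ (Subtype.prop _) _ (Subtype.prop _)
    fun e => n (Subtype.ext e)
  have c : (tsys R h.ok).Cell univ := T.cell fun _ _ _ _ n => f n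
  rcases h.ne with rfl | ⟨a, ha, k⟩
  · exact ⟨top _, by rw [univ_eq_empty_iff.2 inferInstance]; exact Sys.piece_top _,
      by rw [Sys.U_top]; exact (eq_univ_of_forall fun _ _ t => absurd t (Finset.notMem_empty _)).symm⟩
  obtain ⟨π, ⟨hπ, e⟩, -⟩ := Sys.existsUnique_adj c (mem_univ ⟨a, ha⟩) (η a)
  obtain ⟨z, hz⟩ := ((tsys R h.ok).w ⟨a, ha⟩).ne (η a)
  have s : ∀ b : B, (tsys R h.ok).U π ⊆ ((tsys R h.ok).w b).sd (η b) := fun b => by
    obtain ⟨s, t⟩ := hπ.side c (mem_univ b)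
    refine ((tsys R h.ok).w b).sd_inj (b' := η b) (t (hπ.adj _ _ e hz)) ?_ ▸ t
    by_cases n : b = ⟨a, ha⟩
    · exact n ▸ hz.2
    · exact k b (Finset.mem_erase.2 ⟨fun q => n (Subtype.ext q), b.2⟩) ▸ T.far_sd trivial trivial (f n) hz.1
  refine ⟨π, hπ, Subset.antisymm (fun y hy b hb => (T.sd ⟨b, hb⟩ trivial _ y).1 (s _ hy)) fun y hy b t q => ?_⟩
  exact ((tsys R h.ok).w b).sd_inj (s b (hπ.adj _ _ e hz)) (hπ.adj _ _ e hz b t q) ▸
    (T.sd b trivial _ y).2 (hy b b.2)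

/-- **BR-PI1** for the word part `τ < r + 3/4` -/
theorem pi1 (h : TPc F B η) (hf : ¬F.Fst B η) : IsOpen (pc R B η ∩ Pi52.wp R) ∧
    IsPreconnected (pc R B η ∩ Pi52.wp R) ∧ Dr59.HZ X.P.I 1 (pc R B η ∩ Pi52.wp R) ∧
      ∀ (H : Type) [Group H], H1 H (pc R B η ∩ Pi52.wp R) := by
  have := R.con
  obtain ⟨π, hπ, e⟩ := tpc_piece R h
  have T := tsys_trc R h.ok
  have hf' : ¬Sid48.Mem Subtype.val π F.w.l := fun m => hf fun a ha => by
    obtain ⟨z, hz⟩ := Sid48.exists_pt R (c := F.w.l) le_rfl (by have := hw.lt; omega)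
    have k : z ∈ pc R B η := e ▸ (T.mem_U fun _ _ _ => trivial).2 fun b s q => m b s q ▸ hz _ (h.ok _ b.2).1
    exact ((tsys R h.ok).w ⟨a, ha⟩).sd_inj ((T.sd ⟨a, ha⟩ trivial _ z).2 (hz _ (h.ok a ha).1))
      ((T.sd ⟨a, ha⟩ trivial _ z).2 (k a ha))
  have hS : ∀ a : B, (tsys R h.ok).w a = (R.bn ((fun a : B => (a.1 : Wl)) a) (h.ok _ a.2).1).wall := fun _ => rfl
  rw [← e]
  exact ⟨(Sys.isOpen_U _ π).inter (isOpen_wp R), pre_cut hπ.toIsReg (isOpen_wp R) (R.conn_Iio hw.lt.le le_rfl)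
      fun a _ _ z hz => bW_wp R (a := a.1) (h.ok _ a.2).1 (R.range_bn (a.1 : Wl) (h.ok _ a.2).1 ▸ hz.1),
    hz_piece R hS hπ.toIsReg (fun a _ _ => (h.ok _ a.2).2) hf',
    fun _ _ => h1_piece R hS hπ.toIsReg (fun a _ _ => (h.ok _ a.2).2) hf'⟩

end Crest.Agent.X212.Pi52
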