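import Crest.Agent.X212.Sid48.Side
import Crest.Agent.X212.Hz56.Pc
import Crest.Agent.X212.Weil93.Main

/-!
# Row 212, layer G (helper52): the word part of a piece that is not the first one is simply connected

* `hz_of_h1` : `H1 ℝ U → b₁ U = 0`;  `h1_cut`, `h1_half` : cutting along walls;
* `tr_slab`, `h1_slab'`, `h1_in`, `h1_sd` : slabs after a sphere, insides of sphere arcs;
* `wp R` the word part with the left cap, `h1_piece`, `hz_piece`, `U_sub_wp`.
-/

set_option autoImplicit false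
set_option linter.unusedSectionVars false
noncomputable section
open Set Function Filter Topology
open scoped ContDiff Manifold

namespace Crest.Agent.X212.Pi52
open M Rod53 Wd38 Cyl58 Hz56 Lev33

variable {G : Type*} [Group G]

section DR
open Dr59 Weil93 Pj41

variable {E : Type*} [NormedAddCommGroup E] [NormedSpace ℝ E] [FiniteDimensional ℝ E]
  {H : Type*} [TopologicalSpace H] {I : ModelWithCorners ℝ E H}
  {M : Type*} [TopologicalSpace M] [ChartedSpace H M] [I.Boundaryless] [IsManifold I ∞ M] {U : Set M}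

/-- closed one-forms on a simply connected open set are exact -/
theorem hz_of_h1 (hU : IsOpen U) (h : H1 (Multiplicative ℝ) U) : HZ I 1 U := fun a ha => by
  have : ∀ x ∈ U, ∃ (V : Set M) (g : M → ℝ), V ∈ 𝓝 x ∧ IsOpen V ∧ ∀ y ∈ V, FSm I g y ∧ df I g y = a y :=
    fun x hx => by
      obtain ⟨V, h1, h2, h3⟩ := exists_nice (I := I) x U (hU.mem_nhds hx)
      obtain ⟨g, hg⟩ := exists_df h2.op (h2.hz 0 a (ha.mono h3)) (ha.dg.mono h3)
      exact ⟨V, g, h1, h2.op, hg⟩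
  choose! V g h1 h2 h3 using this
  obtain ⟨f, hf⟩ := h.exists_prim (g := g) fun x hx => by
    filter_upwards [mem_nhdsWithin_of_mem_nhds (h1 x hx), self_mem_nhdsWithin] with y y1 y2
    obtain ⟨W, k1, k2, k3⟩ := exists_nice (I := I) y _ (inter_mem ((h2 x hx).mem_nhds y1) (h1 y y2))
    obtain ⟨r, hr⟩ := const_of_df k2.op k2.pc (f := g x - g y) fun z hz =>
      have p := h3 x hx z (k3 hz).1
      have q := h3 y y2 z (k3 hz).2
      ⟨p.1.sub q.1, by rw [df_sub p.1 q.1, p.2, q.2, sub_self]⟩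
    filter_upwards [mem_nhdsWithin_of_mem_nhds k1] with z hz
    exact (hr z hz).trans (hr y (mem_of_mem_nhds k1)).symm
  have k : ∀ x ∈ U, FSm I f x ∧ df I f x = a x := fun x hx => by
    obtain ⟨r, hr⟩ := hf x hx
    rw [hU.nhdsWithin_eq hx] at hr
    have p := h3 x hx x (mem_of_mem_nhds (h1 x hx))
    have q : FSm I (fun _ : M => r) x := contMDiffAt_const
    replace hr : f =ᶠ[𝓝 x] (fun _ : M => r) + g x := hr
    exact ⟨(q.add p.1).congr_of_eventuallyEq hr, by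
      rw [df_congr hr, df_add q p.1, df_eq_zero EventuallyEq.rfl, zero_add, p.2]⟩
  exact (ex_df fun x hx => (k x hx).1).congr fun x hx => (k x hx).2.symm

end DR

/-! ### cutting -/

section Cut

variable {X : Type} [TopologicalSpace X] {A : Type} [Finite A] {S : Sys X A} {ρ : Reg A} {Ω : Set X}

theorem tr_cut (h : S.IsReg ρ) (hΩ : IsOpen Ω) (h1 : H1 G Ω) {c : X → X → G} (hc : Coc (S.U ρ ∩ Ω) c)
    (k : ∀ a b, ρ a = some b → Ω ⊆ (S.w a).sd b ∨ Tr ((S.w a).half b ∩ Ω) c) : Tr (S.U ρ ∩ Ω) c := by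
  let ι := {p : A × Bool // ρ p.1 = some p.2 ∧ ¬Ω ⊆ (S.w p.1).sd p.2}
  refine tr_side (V := Ω ∩ ⋃ p : ι, (S.w p.1.1).sd (!p.1.2) ∪ (S.w p.1.1).band) ((S.isOpen_U ρ).inter hΩ)
    (hΩ.inter (isOpen_iUnion fun p => ((S.w _).op_sd _).union (S.w _).op_band)) ?_ hc
    ((tr_iUnion (W := fun p : ι => (S.w p.1.1).half p.1.2 ∩ Ω)
      (fun p => ((S.w _).op_band.inter ((S.w _).op_sd _)).inter hΩ) (fun p q hpq => ?_)
        fun p => (k _ _ p.2.1).resolve_left p.2.2).mono ?_)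
  · convert h1 using 1
    refine Subset.antisymm (union_subset inter_subset_right inter_subset_left) fun x hx => ?_
    by_cases hx' : x ∈ S.U ρ
    · exact Or.inl ⟨hx', hx⟩
    · simp only [Sys.U, mem_ofPred_eq, not_forall] at hx'
      obtain ⟨a, b, h1, h2⟩ := hx'
      exact Or.inr ⟨hx, mem_iUnion.2 ⟨⟨(a, b), h1, fun e => h2 (e hx)⟩, (S.w a).compl_subset b h2⟩⟩
  · have : p.1.1 ≠ q.1.1 := fun e => hpq (Subtype.ext (Prod.ext e
      (Option.some.inj (p.2.1.symm.trans (e ▸ q.2.1)))))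
    exact (h.cell (Sys.mem_bd_of p.2.1) (Sys.mem_bd_of q.2.1) this).mono
      (inter_subset_left.trans inter_subset_left) (inter_subset_left.trans inter_subset_left)
  · rintro x ⟨h1, h3, h2⟩
    obtain ⟨p, hp⟩ := mem_iUnion.1 h2
    have := h1.1 _ _ p.2.1
    exact mem_iUnion.2 ⟨p, ⟨hp.resolve_left ((S.w _).not_mem_sd this), this⟩, h3⟩

/-- the trace of a region on a simply connected open set -/
theorem h1_cut (h : S.IsReg ρ) (hΩ : IsOpen Ω) (h1 : H1 G Ω)
    (k : ∀ a b, ρ a = some b → Ω ⊆ (S.w a).sd b ∨ H1 G ((S.w a).half b ∩ Ω)) : H1 G (S.U ρ ∩ Ω) :=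
  fun _ hc => tr_cut h hΩ h1 hc fun a b e => (k a b e).imp_right fun t =>
    t.tr hc (inter_subset_inter_left _ (h.adj a b e))

theorem h1_half {X : Mf 4} (N : Band X) (hY : H1 G (univ : Set N.Y.M)) (b : Bool) : H1 G (N.wall.half b) := by
  have := h1_slab N.oe.isOpenEmbedding.isEmbedding hY (s := {s | 0 < M.pm b * s})
    (convex_halfSpace_gt (f := fun s => M.pm b * s) ⟨mul_add _, fun _ _ => mul_left_comm _ _ _⟩ 0)
  rwa [← N.band_inter] at this

end Cut

/-! ### words -/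

variable {Γ : Nm} {C : Cx Γ} {w : Shp Γ} {hw : w.OK} {X : TP V4} (R : Rz C hw X) {x y : ℤ} {α T : ℝ}
  {c : X.P.M → X.P.M → G}
include R

theorem pre_time (h : w.Rg x y) {J : Set ℝ} (hJ : IsOpen J) (hc : IsPreconnected J) (hs : J ⊆ II x y) :
    IsPreconnected (X.τ ⁻¹' J) := tiso_pre (R.B h) hs (conn_time hJ hc)

/-- in a range, trivial on one slice is trivial -/
theorem tr_rg (h : w.Rg x y) {J : Set ℝ} (hJ : IsOpen J) (hc : Convex ℝ J) (hs : J ⊆ II x y)
    (k : Coc (X.τ ⁻¹' J) c) {t : ℝ} (ht : t ∈ J) (k' : Tr (X.τ ⁻¹' {t}) c) : Tr (X.τ ⁻¹' J) c := by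
  have ck : ContinuousOn (R.B h) ((C.tp w x y).τ ⁻¹' J) :=
    (R.B h).φ.contMDiffOn.continuousOn.mono fun p hp => (R.B h).mem_src (hs hp)
  have m : ∀ {L : Set ℝ}, L ⊆ J → MapsTo (R.B h) ((C.tp w x y).τ ⁻¹' L) (X.τ ⁻¹' L) := fun hL p hp =>
    mem_preimage.2 (((R.B h).tm p (hs (hL hp))).symm ▸ mem_preimage.1 hp)
  have s := singleton_subset_iff.2 ht
  have := tr_reg_slice (C.T (w.kn x)) (v := w.v x y) h1_S3 hJ hc isOpen_univ (R := 0) (subset_univ _)
    (fun _ _ _ _ _ _ => trivial) (c := pb (R.B h) c) (by rw [reg_univ]; exact k.comp ck (m Subset.rfl)) ht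
    (by rw [reg_univ]; exact k'.comp (ck.mono (preimage_mono s)) (m s))
  rw [reg_univ] at this
  exact tiso_tr (R.B h) hs this

/-- the fundamental group of a slab comes from its left end -/
theorem tr_slab (h1 : w.l ≤ x) (h3 : α < x + 3 / 4) (h4 : T ≤ w.r + 3 / 4)
    (k : Coc (X.τ ⁻¹' Ioo α T) c) (k' : Tr (X.τ ⁻¹' Ioo α (min T (x + 3 / 4))) c) :
    Tr (X.τ ⁻¹' Ioo α T) c := by
  have key : ∀ j, x ≤ j → j ≤ w.r → Tr (X.τ ⁻¹' Ioo α (min T (j + 3 / 4))) c := fun j hj => by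
    induction j, hj using Int.leInduction with
    | base => exact fun _ => k'
    | succ j hj ih =>
      intro e
      have ih := ih (by omega)
      have hj' : (x : ℝ) ≤ j := by exact_mod_cast hj
      rcases le_or_gt T (j + 3 / 4) with l | l
      · rwa [min_eq_left l, ← min_eq_left (l.trans (show _ ≤ ((j + 1 : ℤ) : ℝ) + 3 / 4 by push_cast; linarith))] at ih
      rw [min_eq_right l.le] at ih
      have r := Shp.rg_one (h1.trans hj) e
      have l1 : max α (j + 1 / 4) < (j : ℝ) + 3 / 4 := max_lt (by linarith) (by linarith)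
      have l2 : (j : ℝ) + 3 / 4 < min T (((j + 1 : ℤ) : ℝ) + 3 / 4) := lt_min l (by push_cast; linarith)
      obtain ⟨t, t1, t2⟩ := exists_between l1
      have s : Ioo (max α (j + 1 / 4)) (min T (((j + 1 : ℤ) : ℝ) + 3 / 4)) ⊆ II j (j + 1) :=
        Ioo_subset_Ioo (le_max_right _ _) (min_le_right _ _)
      refine (ih.union (isOpen_Ioo.preimage X.cont) (isOpen_Ioo.preimage X.cont)
        (tr_rg R r isOpen_Ioo (convex_Ioo _ _) s
          (k.mono (preimage_mono (Ioo_subset_Ioo (le_max_left _ _) (min_le_left _ _)))) ⟨t1, t2.trans l2⟩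
          (ih.mono (preimage_mono (singleton_subset_iff.2 ⟨(le_max_left _ _).trans_lt t1, t2⟩))))
        (pre_time R r (isOpen_Ioo.inter isOpen_Ioo) ((convex_Ioo _ _).inter (convex_Ioo _ _)).isPreconnected
          (inter_subset_right.trans s))).mono fun z hz => ?_
      exact (lt_or_ge (X.τ z) (j + 3 / 4)).imp (fun e => ⟨hz.1, e⟩) fun e => ⟨l1.trans_le e, hz.2⟩
  rcases le_or_gt x w.r with l | l
  · simpa only [min_eq_left h4] using key _ l le_rfl
  · have : (w.r : ℝ) ≤ x := by exact_mod_cast l.le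
    rwa [min_eq_left (by linarith)] at k'

/-- a slab that starts at a simply connected slice -/
theorem h1_slab' (h1 : w.l ≤ x) (h0 : x < w.r) (hY : H1 G (univ : Set (mF C.kd (w.s x).r).M))
    (h2 : (x : ℝ) + 1 / 4 ≤ α) (h3 : α < x + 3 / 4) (h4 : T ≤ w.r + 3 / 4) : H1 G (X.τ ⁻¹' Ioo α T) :=
  fun _ k => tr_slab R h1 h3 h4 k
    (((tiso_h1_time (R.P h1 h0 rfl) (Ioo_subset_Ioo h2 (min_le_right _ _))).2
      (cyl_h1 (mF C.kd (w.s x).r).pc hY (convex_Ioo _ _))).tr k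
        (preimage_mono (Ioo_subset_Ioo_right (min_le_left _ _))))

omit R in
theorem h1_mS : H1 G (univ : Set mS.M) := h1_sphere (by simp)

theorem h1_sS (h : (Bs.sS x).OK w) (h2 : (x : ℝ) + 1 / 4 ≤ α) (h3 : α < x + 3 / 4) (h4 : T ≤ w.r + 3 / 4) :
    H1 G (X.τ ⁻¹' Ioo α T) :=
  h1_slab' R h.1 h.2.1 ((h1_homeo (sD C.kd _ (hw.pr x h.1 h.2.1.le).2 h.2.2).toHomeomorph).2 h1_mS) h2 h3 h4

/-- the inside of a sphere arc -/
theorem h1_in (h : (Bs.sA x y).OK w) {r : ℝ} (h1 : ((y : ℝ) - x) / 2 - 1 / 4 < r)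
    (h2 : r ≤ ((y : ℝ) - x) / 2 + 1 / 4) : H1 G (R.D x y (Iio r)) := by
  have hS : ∀ s ∈ Iio r, s < ((y : ℝ) - x) / 2 + 1 / 4 := fun s hs => hs.trans_le h2
  have l : (x : ℝ) + 1 ≤ y := by exact_mod_cast h.1.lt
  obtain ⟨ρ, r1, r2⟩ := exists_between h1
  rw [R.D_eq h.1 hS]
  refine (tiso_h1 (R.B h.1) fun p hp => C.tm_disc hp hS).2 (h1_disc _ h.2 (x := cc x y - ρ) (y := cc x y + ρ)
    (Shp.bw_le (w := w) (y := y) le_rfl ▸ h.1.jr hw ?_) ?_ (Shp.bw_ge h.1.lt le_rfl ▸ h.1.jr hw ?_) ?_)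
  · unfold cc; exact ⟨by linarith, by linarith⟩
  · rwa [sub_sub_cancel_left, abs_neg, abs_of_pos (by linarith)]
  · unfold cc; exact ⟨by linarith, by linarith⟩
  · rwa [add_sub_cancel_left, abs_of_pos (by linarith)]

/-- everything but the far part of the right cap -/
def wp (_ : Rz C hw X) : Set X.P.M := X.τ ⁻¹' Iio (w.r + 3 / 4)

theorem isOpen_wp : IsOpen (wp R) := isOpen_Iio.preimage X.cont

theorem II_wp (h : y ≤ w.r) {z : X.P.M} (hz : X.τ z ∈ II x y) : z ∈ wp R :=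
  hz.2.trans_le (by gcongr)

theorem D_wp {S : Set ℝ} : R.D x y S ⊆ wp R := fun _ hz => II_wp R hz.1.hi (R.D_II hz)

theorem tws_wp (l : List Tw) {z : X.P.M} : R.tws l z ∈ wp R ↔ z ∈ wp R :=
  R.tws_mem fun _ _ => .inl (D_wp R)

theorem bW_wp {a : Wl} (h : a.b.OK w) : R.bW a ⊆ wp R := by
  rintro _ ⟨z, hz, rfl⟩
  exact (tws_wp R _).2 (II_wp R (Sid48.OK_hi h).2 (R.bd_II hz))

/-- the far side of a pinch wall -/
theorem h1_sd {b : Bs} (h : b.OK w) (hp : b.pin) {s : Bool} (hs : b.side w.l ≠ s) :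
    H1 G (Sid48.sd R b s ∩ wp R) := by
  cases b with
  | sA x y =>
    obtain rfl : s = false := by
      have := h.1.lo
      cases s
      · rfl
      · simp [Bs.side] at hs; omega
    rw [inter_eq_left.2 (show Sid48.sd R (.sA x y) false ⊆ _ from D_wp R)]
    exact h1_in R h (sub_lt_self _ (by norm_num)) (le_add_of_nonneg_right (by norm_num))
  | sS x =>
    obtain rfl : s = true := by
      have := h.1
      cases s
      · simp [Bs.side] at hs; omega
      · rfl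
    convert h1_sS (G := G) R h (α := x + 1 / 2) (by linarith) (by linarith) le_rfl using 1
    ext z
    exact and_congr_left' (not_le (a := X.τ z))
  | _ => exact hp.elim

theorem bn_image (a : Wl) (h : a.b.OK w) (s : Bool) :
    (R.bn a h).wall.sd s ∩ wp R = R.tws a.tw '' (Sid48.sd R a.b s ∩ wp R) := by
  ext z
  obtain ⟨z, rfl⟩ := (R.tws a.tw).surjective z
  exact ((and_congr ((R.bn_sd a h).trans (by rw [Sid48.nk_S])) (tws_wp R _))).trans
    ((R.tws a.tw).injective.mem_set_image (s := Sid48.sd R a.b s ∩ wp R)).symm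

theorem h1_bn {a : Wl} (h : a.b.OK w) (hp : a.b.pin) {s : Bool} (hs : a.b.side w.l ≠ s) :
    H1 G ((R.bn a h).wall.sd s ∩ wp R) := by
  rw [bn_image]
  exact (h1_sd R h hp hs).image (op_of_isEmbedding (R.tws a.tw).toHomeomorph.isEmbedding _)
    (R.tws a.tw).injective.injOn

theorem h1_bn_half {a : Wl} (h : a.b.OK w) (hp : a.b.pin) (s : Bool) : H1 G ((R.bn a h).wall.half s) := by
  refine h1_half _ ?_ s
  change H1 G (univ : Set (mY C.kd (a.b.ty w)).M)
  rw [Bs.ty_sph.2 hp]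
  exact h1_mS

section Piece

variable {A : Type} [Finite A] {S : Sys X.P.M A} {W : A → Wl} {hW : ∀ a, (W a).b.OK w}
  (hS : ∀ a, S.w a = (R.bn (W a) (hW a)).wall) {π : Reg A}
include hS

/-- **the word part of a piece that is not the first one is simply connected** -/
theorem h1_piece (h : S.IsReg π) (hp : ∀ a s, π a = some s → (W a).b.pin)
    (hf : ¬Sid48.Mem (fun a => (W a).b) π w.l) : H1 G (S.U π ∩ wp R) := by
  simp only [Sid48.Mem, not_forall] at hf
  obtain ⟨a, s, e, hs⟩ := hf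
  have := h1_cut (G := G) h (((S.w a).op_sd s).inter (isOpen_wp R)) (hS a ▸ h1_bn R (hW a) (hp a s e) hs)
    fun b t e' => .inr (by
      rw [inter_eq_left.2 (subset_inter (fun z hz => h.adj b t e' hz a s e) fun z hz =>
        bW_wp R (hW b) (R.range_bn _ (hW b) ▸ (hS b ▸ hz : z ∈ (R.bn (W b) (hW b)).wall.half t).1)), hS]
      exact h1_bn_half R (hW b) (hp b t e') t)
  rwa [← inter_assoc, inter_eq_left.2 fun z (hz : z ∈ S.U π) => hz a s e] at this

theorem hz_piece (h : S.IsReg π) (hp : ∀ a s, π a = some s → (W a).b.pin)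
    (hf : ¬Sid48.Mem (fun a => (W a).b) π w.l) : Dr59.HZ X.P.I 1 (S.U π ∩ wp R) :=
  hz_of_h1 ((S.isOpen_U π).inter (isOpen_wp R)) (h1_piece R hS h hp hf)

/-- a piece that is not the last one is its word part -/
theorem U_sub_wp (hl : ¬Sid48.Mem (fun a => (W a).b) π (w.r + 1)) : S.U π ⊆ wp R := fun z hz => by
  simp only [Sid48.Mem, not_forall] at hl
  obtain ⟨a, s, e, hs⟩ := hl
  obtain ⟨z, rfl⟩ := (R.tws (W a).tw).surjective z
  have k := (R.bn_sd _ (hW a)).1 (hS a ▸ hz a s e)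
  have l := Sid48.OK_hi (hW a)
  refine (tws_wp R _).2 (show X.τ z < _ from not_le.1 fun t => hs ?_)
  have k' : z ∈ (R.nk _ (hW a)).S true := by
    rw [Sid48.nk_S]
    exact Sid48.sd_hi R (by linarith [Sid48.cast_le l.2])
  rw [Sid48.side_hi l.1 (by omega)]
  exact (R.nk _ (hW a)).band.wall.sd_inj ((Nk.band_sd _ _).ge k') ((Nk.band_sd _ _).ge k)

/-- middle pieces -/
theorem h1_mid (h : S.IsReg π) (hp : ∀ a s, π a = some s → (W a).b.pin)
    (hf : ¬Sid48.Mem (fun a => (W a).b) π w.l) (hl : ¬Sid48.Mem (fun a => (W a).b) π (w.r + 1)) :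
    H1 G (S.U π) := inter_eq_left.2 (U_sub_wp R hS hl) ▸ h1_piece R hS h hp hf

theorem hz_mid (h : S.IsReg π) (hp : ∀ a s, π a = some s → (W a).b.pin)
    (hf : ¬Sid48.Mem (fun a => (W a).b) π w.l) (hl : ¬Sid48.Mem (fun a => (W a).b) π (w.r + 1)) :
    Dr59.HZ X.P.I 1 (S.U π) := hz_of_h1 (S.isOpen_U π) (h1_mid R hS h hp hf hl)

end Piece

end Crest.Agent.X212.Pi52
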